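import Vale.Agent.P219.Seven.Weight
import Vale.Agent.P219.Gen.Law

/-!
# P219, dimension seven: the certificate
-/

noncomputable section

open MeasureTheory Set

namespace Vale.Agent.P219.CH.Seven

/-- The integrand of the value is a polynomial. -/
theorem integral_value :
    ∫ c in (0 : ℝ)..1, -(aCoef c / 825) * (1 - c ^ 2) ^ 2 = 17072 / 5775 := by
  have e : ∀ c ∈ uIcc (0 : ℝ) 1, -(aCoef c / 825) * (1 - c ^ 2) ^ 2 =
      29040 / 825 * c ^ 2 - 47360 / 825 * c ^ 4 - 5184 / 825 * c ^ 5 + 14720 / 825 * c ^ 6 + 512 / 825 * c ^ 7 + 9072 / 825 * c ^ 8 - 800 / 825 * c ^ 9 := by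
    intro c hc
    rw [uIcc_of_le zero_le_one] at hc
    have h : 0 < 1 + c := by linarith [hc.1]
    unfold aCoef
    field_simp
    ring
  rw [intervalIntegral.integral_congr e]
  simp (disch := exact Continuous.intervalIntegrable (by fun_prop) _ _) only
    [intervalIntegral.integral_add, intervalIntegral.integral_sub,
      intervalIntegral.integral_const_mul, integral_pow]
  norm_num

theorem value_seven :
    Gen.cmean 7 (fun c => -(aCoef c / 825)) = (132 / 5) / ((7 : ℕ) : ℝ) - 1 := by
  have hm : Measurable fun c => -(aCoef c / 825) := by unfold aCoef; fun_prop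
  have hcont : ContinuousOn (fun c => -(aCoef c / 825)) (Icc 0 1) := by
    unfold aCoef
    refine ((ContinuousOn.div (by fun_prop) (by fun_prop) fun c hc => ?_).div_const _).neg
    have : 0 < 1 + c := by linarith [hc.1]
    positivity
  obtain ⟨B, hB⟩ := isCompact_Icc.bddAbove_image hcont
  have h := Gen.Law.cmean_eq 2 hm hcont (B := B) fun c hc =>
    ⟨neg_nonneg.2 (div_nonpos_of_nonpos_of_nonneg (aCoef_nonpos hc.1 hc.2) (by norm_num)),
      hB ⟨c, hc, rfl⟩⟩
  have hK : (∫ c in (-1 : ℝ)..1, (1 - c ^ 2) ^ 2) = 16 / 15 := by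
    have e : ∀ c ∈ uIcc (-1 : ℝ) 1, (1 - c ^ 2) ^ 2 = 1 * c ^ 0 - 2 * c ^ 2 + 1 * c ^ 4 :=
      fun c _ => by ring
    rw [intervalIntegral.integral_congr e]
    simp (disch := exact Continuous.intervalIntegrable (by fun_prop) _ _) only
      [intervalIntegral.integral_add, intervalIntegral.integral_sub,
        intervalIntegral.integral_const_mul, integral_pow]
    norm_num
  rw [integral_value, hK] at h
  change Gen.cmean 7 (fun c => -(aCoef c / 825)) * (16 / 15) = 17072 / 5775 at h
  push_cast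
  linarith

/-- The certificate of the sharp constant in dimension seven. -/
theorem cert_seven : Gen.Cert 7 (fun c => aCoef c / 825) (132 / 5) where
  b_nonneg := by norm_num
  measurable_a := by unfold aCoef; fun_prop
  a_nonpos := fun c hc => div_nonpos_of_nonpos_of_nonneg (aCoef_nonpos hc.1 hc.2) (by norm_num)
  a_bounded := ⟨1000, fun c hc => by
    have h1 : 1 ≤ (1 + c) ^ 2 := by nlinarith [hc.1]
    have hp : ∀ k : ℕ, c ^ k ≤ 1 ∧ 0 ≤ c ^ k := fun k =>
      ⟨pow_le_one₀ hc.1 hc.2, pow_nonneg hc.1 k⟩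
    rw [le_div_iff₀ (by norm_num : (0 : ℝ) < 825), aCoef, le_div_iff₀ (by linarith)]
    nlinarith [hp 2, hp 3, hp 4, hp 5, hp 6, hp 7]⟩
  value := value_seven
  weight := fun _ _ hε hT => weight_cert hε hT

end Vale.Agent.P219.CH.Seven
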