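import Mathlib

/-!
# P219, dimension seven: the closed form certificate

The weight at a centre is `u (r, c) = (wnum r c / r ^ 2) / (825 * (2 + r) ^ 2)` with `c` the cosine at
the centre. The functions below are multiplied by `825`; the Lipschitz bound of the cosine enters through
`sqrt ((1 - c ^ 2) (1 - d ^ 2)) ≤ 1 - (c ^ 2 + d ^ 2) / 2`, so that everything is rational.
-/

noncomputable section

namespace Vale.Agent.P219.CH.Seven

/-- The part of the numerator of the weight that is free of the cosine. -/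
def wA (r : ℝ) : ℝ := 2420 + 2420 * r + 1733 * r ^ 2 + 470 * r ^ 3

/-- The part of the numerator of the weight along the square of the cosine. -/
def wB (r : ℝ) : ℝ := 1228 + 580 * r

/-- The numerator of the derivative of the free part. -/
def dA (r : ℝ) : ℝ := (2420 + 3466 * r + 1410 * r ^ 2) * (2 * r + r ^ 2) - wA r * (6 + 5 * r)

/-- The numerator of the derivative of the part along the cosine. -/
def dB (r : ℝ) : ℝ := 580 * (2 * r + r ^ 2) - wB r * (10 + 7 * r)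

/-- The one-sided integrand. -/
def psi (r c d : ℝ) : ℝ :=
  825 + (6 * (2 + r) * (wA r - c ^ 2 * wB r)
    + (1 - d ^ 2) * (dA r - c ^ 2 * dB r - 2 * c ^ 2 * wB r * (2 + r))
    - wB r * (2 + r) * (c * d) * (2 - c ^ 2 - d ^ 2)
    - 6 * r * d * (2 + r) * (wA r - c ^ 2 * wB r)) / (r ^ 3 * (2 + r) ^ 3)

/-- The symmetrised integrand times `r ^ 3 * (2 + r) ^ 3`, in `s = c + d` and `q = c d`. -/
def symS (r s q : ℝ) : ℝ :=
  29040 + 7152 * s ^ 2 + q * (-24128 + 4912 * s ^ 2) - 24560 * q ^ 2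
    + r * (43560 - 29040 * s + 15912 * s ^ 2 + q * (-41376 + 14736 * s + 4776 * s ^ 2)
      - 26472 * q ^ 2)
    + r ^ 2 * (44340 - 43560 * s + 11986 * s ^ 2 + q * (-26292 + 14328 * s + 1160 * s ^ 2)
      - 6960 * q ^ 2)
    + r ^ 3 * (34878 - 35316 * s + 5199 * s ^ 2 + q * (-10398 + 3480 * s))
    + r ^ 4 * (23560 - 16038 * s + 940 * s ^ 2 - 1880 * q)
    + r ^ 5 * (9900 - 2820 * s) + 1650 * r ^ 6

/-- The coefficient of the marginal terms. -/
def aCoef (t : ℝ) : ℝ :=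
  t ^ 2 * (-29040 - 58080 * t - 39760 * t ^ 2 - 16256 * t ^ 3 - 7472 * t ^ 4 + 800 * t ^ 5) /
    (1 + t) ^ 2

/-- The polynomial part of `-aCoef t / t`. -/
def hpol (t : ℝ) : ℝ := -800 * t ^ 4 + 9072 * t ^ 3 - 1088 * t ^ 2 + 32864 * t - 6560

/-- The sum of `hpol` at two points, in `s` and `q`. -/
def hsum (s q : ℝ) : ℝ :=
  -800 * (s ^ 4 - 4 * q * s ^ 2 + 2 * q ^ 2) + 9072 * (s ^ 3 - 3 * q * s)
    - 1088 * (s ^ 2 - 2 * q) + 32864 * s - 13120

/-- The sum of the rational parts, in `s` and `q`. -/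
def rsum (s q : ℝ) : ℝ :=
  9296 * (2 + s) / (1 + s + q) - 2736 * ((2 + s) ^ 2 - 2 * (1 + s + q)) / (1 + s + q) ^ 2

/-- The defect of the line inequality, in `s` and `q`. -/
def lineF (r s q : ℝ) : ℝ :=
  symS r s q * (r ^ 3 / (2 + r) ^ 3) + q * (hsum s q + rsum s q) - 43560 * q * r

theorem psi_sym {r : ℝ} (hr : 0 < r) (c d : ℝ) :
    r ^ 3 * (2 + r) ^ 3 * (psi r c d + psi r d c) = symS r (c + d) (c * d) := by
  unfold psi symS dA dB wA wB
  field_simp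
  ring

theorem aCoef_eq {t : ℝ} (ht : 0 ≤ t) :
    -aCoef t = t * (hpol t + 9296 / (1 + t) - 2736 / (1 + t) ^ 2) := by
  have : 0 < 1 + t := by linarith
  unfold aCoef hpol
  field_simp
  ring

theorem rsum_eq {c d : ℝ} (hc : 0 ≤ c) (hd : 0 ≤ d) :
    rsum (c + d) (c * d) =
      9296 / (1 + c) - 2736 / (1 + c) ^ 2 + (9296 / (1 + d) - 2736 / (1 + d) ^ 2) := by
  have h1 : 0 < 1 + c := by linarith
  have h2 : 0 < 1 + d := by linarith
  unfold rsum
  rw [show 1 + (c + d) + c * d = (1 + c) * (1 + d) by ring]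
  field_simp
  ring

theorem lineF_eq {r c d : ℝ} (hc : 0 ≤ c) (hd : 0 ≤ d) :
    lineF r (c + d) (c * d) =
      symS r (c + d) (c * d) * (r ^ 3 / (2 + r) ^ 3) - aCoef c * d - aCoef d * c
        - 43560 * (c * d) * r := by
  have e1 := aCoef_eq hc
  have e2 := aCoef_eq hd
  have e3 := rsum_eq hc hd
  have e4 : hsum (c + d) (c * d) = hpol c + hpol d := by unfold hsum hpol; ring
  rw [lineF, e3, e4]
  linear_combination (-d) * e1 - c * e2

theorem aCoef_nonpos {t : ℝ} (h0 : 0 ≤ t) (h1 : t ≤ 1) : aCoef t ≤ 0 := by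
  refine div_nonpos_of_nonpos_of_nonneg (mul_nonpos_of_nonneg_of_nonpos (sq_nonneg t) ?_)
    (sq_nonneg _)
  have h5 : t ^ 5 ≤ t ^ 4 := pow_le_pow_of_le_one h0 h1 (by norm_num)
  have := pow_nonneg h0 4
  have := pow_nonneg h0 3
  have := sq_nonneg t
  linarith

/-- The marginal coefficient dominates its leading term. -/
theorem aCoef_le {t : ℝ} (h0 : 0 ≤ t) (h1 : t ≤ 1) : aCoef t ≤ -29040 * t ^ 2 := by
  have : 0 < 1 + t := by linarith
  rw [aCoef, div_le_iff₀ (by positivity)]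
  have h7 : t ^ 7 ≤ t ^ 6 := pow_le_pow_of_le_one h0 h1 (by norm_num)
  nlinarith [pow_nonneg h0 6, pow_nonneg h0 5, pow_nonneg h0 4]

theorem quad_nonneg {a b e x : ℝ} (ha : 0 < a) (h : b ^ 2 ≤ 4 * a * e) :
    0 ≤ a * x ^ 2 + b * x + e := by
  have : 0 ≤ 4 * a * (a * x ^ 2 + b * x + e) := by nlinarith [sq_nonneg (2 * a * x + b)]
  exact nonneg_of_mul_nonneg_right this (by positivity)

/-! ## The symmetrised integrand on the three edges -/

/-- A common lower bound of the symmetrised integrand near the corner of equal cosines. -/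
theorem poly_bound {r : ℝ} (hr : 0 ≤ r) :
    0 ≤ 28608 + 21900 * r + 2100 * r ^ 2 - 18396 * r ^ 3 - 6636 * r ^ 4 + 4260 * r ^ 5
      + 1650 * r ^ 6 := by
  have h := mul_nonneg (pow_nonneg hr 4) (sq_nonneg (r - 27 / 20))
  have h3 := mul_nonneg (pow_nonneg hr 3) (sq_nonneg (r - 27 / 20))
  have h2 := mul_nonneg (pow_nonneg hr 2) (sq_nonneg (r - 27 / 20))
  have h1 := mul_nonneg hr (sq_nonneg (r - 27 / 20))
  have h0 := sq_nonneg (r - 27 / 20)
  nlinarith [mul_nonneg hr (sq_nonneg (r - 5 / 2)), sq_nonneg (r - 5 / 2),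
    mul_nonneg (sq_nonneg r) (sq_nonneg (r - 5 / 2))]

theorem sym_edge_zero {r c : ℝ} (hr : 0 ≤ r) (hc : 0 ≤ c) (hc1 : c ≤ 1) : 0 ≤ symS r c 0 := by
  have h1 : 0 ≤ 43560 - 29040 * c + 15912 * c ^ 2 := by nlinarith
  have h2 : 0 ≤ 44340 - 43560 * c + 11986 * c ^ 2 := by nlinarith
  have h3 : 0 ≤ 34878 - 35316 * c + 5199 * c ^ 2 := by nlinarith
  have h4 : 0 ≤ 23560 - 16038 * c + 940 * c ^ 2 := by nlinarith
  have h5 : 0 ≤ 9900 - 2820 * c := by linarith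
  simp only [symS, zero_mul, mul_zero, sub_zero, add_zero, zero_pow two_ne_zero]
  positivity

theorem sym_edge_one {r c : ℝ} (hr : 0 ≤ r) (hc : 0 ≤ c) (hc1 : c ≤ 1) :
    0 ≤ symS r (c + 1) c := by
  have hc2 : c ^ 2 ≤ 1 := pow_le_one₀ hc hc1
  have e0 : 28608 ≤ 36192 - 4912 * c - 7584 * c ^ 2 + 4912 * c ^ 3 := by
    nlinarith [mul_nonneg hc (sub_nonneg.2 hc2)]
  have e1 : 21900 ≤ 30432 - 19080 * c + 13728 * c ^ 2 + 4776 * c ^ 3 := by
    nlinarith [sq_nonneg (c - 7 / 10), pow_nonneg hc 3]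
  have e2 : 2100 ≤ 12766 - 30392 * c + 21674 * c ^ 2 + 1160 * c ^ 3 := by
    nlinarith [sq_nonneg (c - 7 / 10), pow_nonneg hc 3]
  have e3 : -18396 ≤ 4761 - 31836 * c + 8679 * c ^ 2 := by nlinarith
  have e4 : -6636 ≤ 8462 - 16038 * c + 940 * c ^ 2 := by nlinarith
  have e5 : 4260 ≤ 7080 - 2820 * c := by linarith
  have := poly_bound hr
  have := mul_le_mul_of_nonneg_left e1 hr
  have := mul_le_mul_of_nonneg_left e2 (pow_nonneg hr 2)
  have := mul_le_mul_of_nonneg_left e3 (pow_nonneg hr 3)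
  have := mul_le_mul_of_nonneg_left e4 (pow_nonneg hr 4)
  have := mul_le_mul_of_nonneg_left e5 (pow_nonneg hr 5)
  unfold symS
  linarith

theorem sym_edge_diag {r t : ℝ} (hr : 0 ≤ r) (ht : 0 ≤ t) (ht1 : t ≤ 1) :
    0 ≤ symS r (2 * t) (t ^ 2) := by
  have hx : t ^ 2 ≤ 1 := pow_le_one₀ ht ht1
  have e0 : 28608 ≤ 29040 + 4480 * t ^ 2 - 4912 * t ^ 4 := by
    nlinarith [mul_nonneg (sq_nonneg t) (sub_nonneg.2 hx)]
  have e1 : 21900 ≤ 43560 - 58080 * t + 22272 * t ^ 2 + 29472 * t ^ 3 - 7368 * t ^ 4 := by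
    nlinarith [sq_nonneg (t - 649 / 1000), mul_nonneg ht (sq_nonneg (t - 649 / 1000)),
      mul_nonneg (mul_nonneg ht (sub_nonneg.2 ht1)) (sq_nonneg (t - 649 / 1000))]
  have e2 : 2100 ≤ 44340 - 87120 * t + 21652 * t ^ 2 + 28656 * t ^ 3 - 2320 * t ^ 4 := by
    nlinarith [sq_nonneg (t - 81 / 100), mul_nonneg ht (sq_nonneg (t - 81 / 100)),
      mul_nonneg (sub_nonneg.2 ht1) (sq_nonneg (t - 81 / 100))]
  have e3 : -18396 ≤ 34878 - 70632 * t + 10398 * t ^ 2 + 6960 * t ^ 3 := by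
    nlinarith [mul_nonneg (sub_nonneg.2 ht1) (mul_nonneg ht ht), mul_nonneg (sub_nonneg.2 ht1) ht]
  have e4 : -6636 ≤ 23560 - 32076 * t + 1880 * t ^ 2 := by nlinarith
  have e5 : 4260 ≤ 9900 - 5640 * t := by linarith
  have := poly_bound hr
  have := mul_le_mul_of_nonneg_left e1 hr
  have := mul_le_mul_of_nonneg_left e2 (pow_nonneg hr 2)
  have := mul_le_mul_of_nonneg_left e3 (pow_nonneg hr 3)
  have := mul_le_mul_of_nonneg_left e4 (pow_nonneg hr 4)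
  have := mul_le_mul_of_nonneg_left e5 (pow_nonneg hr 5)
  unfold symS
  linarith

theorem cosines_mem {c d : ℝ} (hc : 0 ≤ c) (hc1 : c ≤ 1) (hd : 0 ≤ d) (hd1 : d ≤ 1) :
    max 0 (c + d - 1) ≤ c * d ∧ c * d ≤ ((c + d) / 2) ^ 2 :=
  ⟨max_le (mul_nonneg hc hd) (by nlinarith [mul_nonneg (sub_nonneg.2 hc1) (sub_nonneg.2 hd1)]),
    by nlinarith [sq_nonneg (c - d)]⟩

theorem symS_low {r s : ℝ} (hr : 0 ≤ r) (hs : 0 ≤ s) (hs2 : s ≤ 2) :
    0 ≤ symS r s (max 0 (s - 1)) := by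
  rcases le_total s 1 with h | h
  · rw [max_eq_left (by linarith)]; exact sym_edge_zero hr hs h
  · rw [max_eq_right (by linarith)]
    simpa using sym_edge_one hr (c := s - 1) (by linarith) (by linarith)

theorem symS_high {r s : ℝ} (hr : 0 ≤ r) (hs : 0 ≤ s) (hs2 : s ≤ 2) :
    0 ≤ symS r s ((s / 2) ^ 2) := by
  simpa [mul_div_cancel₀] using sym_edge_diag hr (t := s / 2) (by linarith) (by linarith)

/-- A function above its secant on an interval with nonnegative end values is nonnegative. -/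
theorem secant {f : ℝ → ℝ} {q0 q1 q : ℝ} (h0 : q0 ≤ q) (h1 : q ≤ q1) (hf0 : 0 ≤ f q0)
    (hf1 : 0 ≤ f q1) (h : (q1 - q) * f q0 + (q - q0) * f q1 ≤ (q1 - q0) * f q) : 0 ≤ f q := by
  rcases eq_or_lt_of_le (h0.trans h1) with he | he
  · rwa [show q = q0 by linarith]
  refine nonneg_of_mul_nonneg_right (a := q1 - q0) (le_trans ?_ h) (by linarith)
  exact add_nonneg (mul_nonneg (sub_nonneg.2 h1) hf0) (mul_nonneg (sub_nonneg.2 h0) hf1)

theorem symS_secant {r s q0 q1 q : ℝ} (hr : 0 ≤ r) (h0 : q0 ≤ q) (h1 : q ≤ q1) :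
    (q1 - q) * symS r s q0 + (q - q0) * symS r s q1 ≤ (q1 - q0) * symS r s q := by
  have := mul_nonneg (show 0 ≤ 24560 + 26472 * r + 6960 * r ^ 2 by positivity)
    (mul_nonneg (mul_nonneg (sub_nonneg.2 h0) (sub_nonneg.2 h1))
      (sub_nonneg.2 (h0.trans h1)))
  unfold symS
  linear_combination this

/-- The symmetrised integrand is nonnegative. -/
theorem symS_nonneg {r c d : ℝ} (hr : 0 ≤ r) (hc : 0 ≤ c) (hc1 : c ≤ 1) (hd : 0 ≤ d)
    (hd1 : d ≤ 1) : 0 ≤ symS r (c + d) (c * d) := by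
  obtain ⟨h0, h1⟩ := cosines_mem hc hc1 hd hd1
  exact secant (f := symS r (c + d)) h0 h1 (symS_low hr (by linarith) (by linarith))
    (symS_high hr (by linarith) (by linarith)) (symS_secant hr h0 h1)

/-! ## The line inequality on the edges -/

/-- The cofactor of `(r - 2 t) ^ 2` on the edge of equal cosines. -/
def diagJ (r t : ℝ) : ℝ :=
  t * (116160 + 232320 * t + 159040 * t ^ 2 + 65024 * t ^ 3 + t ^ 4 * (29888 - 3200 * t))
    + r * (29040 + 232320 * t + 420400 * t ^ 2 + 303584 * t ^ 3 + 127424 * t ^ 4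
      + t ^ 5 * (41632 - 4800 * t))
    + r ^ 2 * (43560 + 206400 * t + 330888 * t ^ 2 + 239232 * t ^ 3 + 91200 * t ^ 4
      + t ^ 5 * (17616 - 2400 * t))
    + r ^ 3 * (44340 + 141072 * t + 170968 * t ^ 2 + 98216 * t ^ 3 + 25716 * t ^ 4
      + t ^ 5 * (1336 - 400 * t))
    + r ^ 4 * (34878 + 93364 * t + 82988 * t ^ 2 + t ^ 3 * (24996 + 94 * t - 400 * t ^ 2))
    + r ^ 5 * (23560 + 54644 * t + 37728 * t ^ 2 + t ^ 3 * (5764 - 880 * t))
    + r ^ 6 * (9900 + 20760 * t + 11820 * t ^ 2 + 960 * t ^ 3)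
    + r ^ 7 * (1650 + 3300 * t + 1650 * t ^ 2)

theorem line_diag {r t : ℝ} (hr : 0 ≤ r) (ht : 0 ≤ t) (ht1 : t ≤ 1) :
    0 ≤ lineF r (2 * t) (t ^ 2) := by
  have hx : t ^ 2 ≤ 1 := pow_le_one₀ ht ht1
  have h1t : 0 < 1 + t := by linarith
  have h2r : 0 < 2 + r := by linarith
  have he : lineF r (2 * t) (t ^ 2) * ((2 + r) ^ 3 * (1 + t) ^ 2) =
      (r - 2 * t) ^ 2 * diagJ r t := by
    rw [show 2 * t = t + t by ring, show t ^ 2 = t * t by ring, lineF_eq ht ht]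
    unfold symS aCoef diagJ
    field_simp
    ring
  refine nonneg_of_mul_nonneg_left (b := (2 + r) ^ 3 * (1 + t) ^ 2) ?_ (by positivity)
  rw [he]
  have : 0 ≤ 29888 - 3200 * t := by linarith
  have : 0 ≤ 41632 - 4800 * t := by linarith
  have : 0 ≤ 17616 - 2400 * t := by linarith
  have : 0 ≤ 1336 - 400 * t := by linarith
  have : 0 ≤ 5764 - 880 * t := by linarith
  have : 0 ≤ 24996 + 94 * t - 400 * t ^ 2 := by linarith
  unfold diagJ
  positivity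

/-- The constant coefficient on the edge `d = 1`. -/
def edgeA (c : ℝ) : ℝ :=
  101343 + 588802 * c + 1381672 * c ^ 2 + 1681024 * c ^ 3 + 1157654 * c ^ 4 + 445112 * c ^ 5 + 82820 * c ^ 6
    + 1340 * c ^ 7 - 1969 * c ^ 8 - 230 * c ^ 9

/-- The mixed coefficient on the edge `d = 1`. -/
def edgeB (c : ℝ) : ℝ :=
  -453424 - 1301548 * c - 1141886 * c ^ 2 + 249614 * c ^ 3 + 1216474 * c ^ 4 + 1009466 * c ^ 5 + 373810 * c ^ 6
    + 51806 * c ^ 7 - 3182 * c ^ 8 - 1130 * c ^ 9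

/-- The coefficient of `v ^ 2` on the edge `d = 1`. -/
def edgeC (c : ℝ) : ℝ :=
  925585 + 2929794 * c + 4344746 * c ^ 2 + 4685126 * c ^ 3 + 4192956 * c ^ 4 + 2866510 * c ^ 5 + 1363090 * c ^ 6
    + 370278 * c ^ 7 + 41927 * c ^ 8 + 180 * c ^ 9

/-- The coefficient of `v ^ 3` on the edge `d = 1`. -/
def edgeD (c : ℝ) : ℝ :=
  1212050 + 4946218 * c + 9186534 * c ^ 2 + 10414402 * c ^ 3 + 7878058 * c ^ 4 + 3989002 * c ^ 5
    + 1282426 * c ^ 6 + 220290 * c ^ 7 + 13580 * c ^ 8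

/-- The coefficient of `v ^ 4` on the edge `d = 1`. -/
def edgeE (c : ℝ) : ℝ :=
  1165347 + 4996894 * c + 9214825 * c ^ 2 + 9590012 * c ^ 3 + 6115245 * c ^ 4 + 2370766 * c ^ 5
    + 505655 * c ^ 6 + 43400 * c ^ 7

/-- The coefficient of `v ^ 5` on the edge `d = 1`. -/
def edgeF (c : ℝ) : ℝ :=
  823414 + 3335712 * c + 5570840 * c ^ 2 + 4938436 * c ^ 3 + 2459850 * c ^ 4 + 649676 * c ^ 5 + 69720 * c ^ 6

/-- The coefficient of `v ^ 6` on the edge `d = 1`. -/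
def edgeG (c : ℝ) : ℝ :=
  400835 + 1450122 * c + 2056852 * c ^ 2 + 1432898 * c ^ 3 + 491553 * c ^ 4 + 66220 * c ^ 5

/-- The coefficient of `v ^ 7` on the edge `d = 1`. -/
def edgeH (c : ℝ) : ℝ :=
  124502 + 385846 * c + 435966 * c ^ 2 + 212402 * c ^ 3 + 37780 * c ^ 4

/-- The coefficient of `v ^ 8` on the edge `d = 1`. -/
def edgeI (c : ℝ) : ℝ :=
  21930 + 55890 * c + 45990 * c ^ 2 + 12030 * c ^ 3

/-- The coefficient of `v ^ 9` on the edge `d = 1`. -/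
def edgeK (c : ℝ) : ℝ :=
  1650 + 3300 * c + 1650 * c ^ 2


theorem edgeA_ge {c : ℝ} (hc : 0 ≤ c) (hc1 : c ≤ 1) :
    101343 + 588802 * c + 1381672 * c ^ 2 + 1681024 * c ^ 3 ≤ edgeA c := by
  have := pow_nonneg hc 4
  have := pow_nonneg hc 5
  have := pow_nonneg hc 6
  have := pow_nonneg hc 7
  have h8 : c ^ 8 ≤ c ^ 4 := pow_le_pow_of_le_one hc hc1 (by norm_num)
  have h9 : c ^ 9 ≤ c ^ 4 := pow_le_pow_of_le_one hc hc1 (by norm_num)
  unfold edgeA
  linarith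

theorem abs_edgeB_le {c : ℝ} (hc : 0 ≤ c) (hc1 : c ≤ 1) :
    |edgeB c| ≤ 453424 + 1301548 * c + 1141886 * c ^ 2 := by
  have := pow_nonneg hc 3
  have := pow_nonneg hc 4
  have := pow_nonneg hc 5
  have := pow_nonneg hc 6
  have := pow_nonneg hc 7
  have h8 : c ^ 8 ≤ c ^ 4 := pow_le_pow_of_le_one hc hc1 (by norm_num)
  have h9 : c ^ 9 ≤ c ^ 4 := pow_le_pow_of_le_one hc hc1 (by norm_num)
  have h7 : c ^ 7 ≤ c ^ 2 := pow_le_pow_of_le_one hc hc1 (by norm_num)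
  have h6 : c ^ 6 ≤ c ^ 2 := pow_le_pow_of_le_one hc hc1 (by norm_num)
  have h5 : c ^ 5 ≤ c ^ 2 := pow_le_pow_of_le_one hc hc1 (by norm_num)
  have h4 : c ^ 4 ≤ c ^ 2 := pow_le_pow_of_le_one hc hc1 (by norm_num)
  have h3 : c ^ 3 ≤ c ^ 2 := pow_le_pow_of_le_one hc hc1 (by norm_num)
  have h2 : c ^ 2 ≤ c := by nlinarith
  have := pow_nonneg hc 8
  have := pow_nonneg hc 9
  unfold edgeB
  rw [abs_le]
  constructor <;> linarith

theorem edgeB_sq {c : ℝ} (hc : 0 ≤ c) (hc1 : c ≤ 1) :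
    edgeB c ^ 2 ≤ 4 * edgeA c * 750000 := by
  obtain ⟨h0, h1⟩ := abs_le.1 (abs_edgeB_le hc hc1)
  have hA := edgeA_ge hc hc1
  have h4 : c ^ 4 ≤ c ^ 3 := pow_le_pow_of_le_one hc hc1 (by norm_num)
  have := pow_nonneg hc 3
  have := sq_nonneg c
  nlinarith [sq_le_sq' h0 h1]

theorem edgeC_ge {v c : ℝ} (hc : 0 ≤ c) (hc1 : c ≤ 1) (hv : -(141 / 1000 + c / 3) ≤ v) :
    750000 ≤ edgeC c + v * edgeD c := by
  have hD : 0 ≤ edgeD c := by unfold edgeD; positivity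
  have h := mul_le_mul_of_nonneg_right hv hD
  have hk : ∀ k : ℕ, 1 ≤ k → c ^ k ≤ c := fun k hk => by
    calc c ^ k ≤ c ^ 1 := pow_le_pow_of_le_one hc hc1 hk
      _ = c := pow_one c
  have := hk 4 (by norm_num)
  have := hk 5 (by norm_num)
  have := hk 6 (by norm_num)
  have := hk 7 (by norm_num)
  have := hk 8 (by norm_num)
  have := hk 9 (by norm_num)
  have := sq_nonneg c
  have := pow_nonneg hc 3
  unfold edgeC edgeD at *
  linarith

/-- The square coefficient on the edge `d = 1`. -/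
def edgeSq (v c : ℝ) : ℝ :=
  edgeC c + v * edgeD c + v ^ 2 * (edgeE c + v * edgeF c) + v ^ 4 * (edgeG c + v * edgeH c)
    + v ^ 6 * (edgeI c + v * edgeK c)

theorem pair_nonneg {v a b : ℝ} (hv : -(1 / 2) ≤ v) (hb : 0 ≤ b) (hab : b / 2 ≤ a) :
    0 ≤ a + v * b := by
  linarith [mul_le_mul_of_nonneg_right hv hb]

theorem edgeSq_ge {v c : ℝ} (hc : 0 ≤ c) (hc1 : c ≤ 1) (hv : -(141 / 1000 + c / 3) ≤ v) :
    750000 ≤ edgeSq v c := by
  have hC := edgeC_ge hc hc1 hv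
  have hv2 : -(1 / 2) ≤ v := by linarith
  have := sq_nonneg c
  have := pow_nonneg hc 3
  have := pow_nonneg hc 4
  have := pow_nonneg hc 5
  have := pow_nonneg hc 6
  have := pow_nonneg hc 7
  have hE : 0 ≤ edgeE c + v * edgeF c := by
    refine pair_nonneg hv2 ?_ ?_ <;> unfold edgeF <;> [skip; unfold edgeE] <;> linarith
  have hG : 0 ≤ edgeG c + v * edgeH c := by
    refine pair_nonneg hv2 ?_ ?_ <;> unfold edgeH <;> [skip; unfold edgeG] <;> linarith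
  have hI : 0 ≤ edgeI c + v * edgeK c := by
    refine pair_nonneg hv2 ?_ ?_ <;> unfold edgeK <;> [skip; unfold edgeI] <;> linarith
  have := mul_nonneg (sq_nonneg v) hE
  have := mul_nonneg (show 0 ≤ v ^ 4 by positivity) hG
  have := mul_nonneg (show 0 ≤ v ^ 6 by positivity) hI
  unfold edgeSq
  linarith

theorem line_edge_expand {v c : ℝ} (hc : 0 ≤ c) (h : 0 < 3 + c + v) :
    lineF (1 + c + v) (c + 1) c * ((2 + (1 + c + v)) ^ 3 * (1 + c) ^ 2) =
      edgeA c * (c - 1) ^ 2 + edgeB c * (c - 1) * v + edgeSq v c * v ^ 2 := by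
  have e := lineF_eq (r := 1 + c + v) hc zero_le_one
  rw [mul_one] at e
  rw [e]
  have h1 : (0 : ℝ) < 1 + c := by linarith
  have h2 : 2 + (1 + c + v) ≠ 0 := by linarith
  have a1 : aCoef 1 = -37452 := by norm_num [aCoef]
  rw [a1]
  unfold symS aCoef edgeSq edgeA edgeB edgeC edgeD edgeE edgeF edgeG edgeH edgeI edgeK
  field_simp
  ring

theorem line_edge_one {r c : ℝ} (hr : 0 ≤ r) (hc : 0 ≤ c) (hc1 : c ≤ 1) :
    0 ≤ lineF r (c + 1) c := by
  rcases le_total r (859 / 1000 + 2 / 3 * c) with h | h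
  · have e := lineF_eq (r := r) hc zero_le_one
    rw [mul_one] at e
    rw [e]
    have h1 : aCoef 1 = -37452 := by norm_num [aCoef]
    have h2 := aCoef_le hc hc1
    have h3 : 0 ≤ symS r (c + 1) c * (r ^ 3 / (2 + r) ^ 3) :=
      mul_nonneg (sym_edge_one hr hc hc1) (by positivity)
    have h4 := mul_le_mul_of_nonneg_left h hc
    rw [h1]
    linarith
  · obtain ⟨v, hv⟩ : ∃ v, r = 1 + c + v := ⟨r - 1 - c, by ring⟩
    subst hv
    refine nonneg_of_mul_nonneg_left (b := (2 + (1 + c + v)) ^ 3 * (1 + c) ^ 2) ?_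
      (mul_pos (pow_pos (by linarith) 3) (pow_pos (by linarith) 2))
    rw [line_edge_expand hc (by linarith)]
    have hA : 0 < edgeA c := by
      have := edgeA_ge hc hc1
      have := sq_nonneg c
      have := pow_nonneg hc 3
      linarith
    have hC := edgeSq_ge hc hc1 (show -(141 / 1000 + c / 3) ≤ v by linarith)
    have hB : edgeB c ^ 2 ≤ 4 * edgeA c * edgeSq v c :=
      (edgeB_sq hc hc1).trans (mul_le_mul_of_nonneg_left hC (by positivity))
    have := quad_nonneg (x := c - 1) (b := edgeB c * v) (e := edgeSq v c * v ^ 2) hA (by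
      rw [mul_pow, ← mul_assoc]
      exact mul_le_mul_of_nonneg_right hB (sq_nonneg v))
    linarith

theorem lineF_low {r s : ℝ} (hr : 0 ≤ r) (hs : 0 ≤ s) (hs2 : s ≤ 2) :
    0 ≤ lineF r s (max 0 (s - 1)) := by
  rcases le_total s 1 with h | h
  · rw [max_eq_left (by linarith)]
    simpa [lineF] using mul_nonneg (sym_edge_zero hr hs h)
      (show 0 ≤ r ^ 3 / (2 + r) ^ 3 by positivity)
  · rw [max_eq_right (by linarith)]
    simpa using line_edge_one (c := s - 1) hr (by linarith) (by linarith)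

theorem lineF_high {r s : ℝ} (hr : 0 ≤ r) (hs : 0 ≤ s) (hs2 : s ≤ 2) :
    0 ≤ lineF r s ((s / 2) ^ 2) := by
  simpa [mul_div_cancel₀] using line_diag (t := s / 2) hr (by linarith) (by linarith)

/-! ## Concavity in the product of the cosines -/

theorem hsum_secant (s q0 q1 q : ℝ) :
    (q1 - q0) * (q * hsum s q) = (q1 - q) * (q0 * hsum s q0) + (q - q0) * (q1 * hsum s q1)
      - (2176 - 27216 * s + 3200 * s ^ 2 - 1600 * (q0 + q1 + q)) *
        ((q - q0) * (q1 - q) * (q1 - q0)) := by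
  unfold hsum
  ring

theorem inv_secant {a b m : ℝ} (ha : a ≠ 0) (hb : b ≠ 0) (hm : m ≠ 0) :
    (b - a) / m = (b - m) / a + (m - a) / b - (m - a) * (b - m) * (b - a) / (a * m * b) ∧
    (b - a) / m ^ 2 = (b - m) / a ^ 2 + (m - a) / b ^ 2
      - (m - a) * (b - m) * (b - a) / (a * m * b) * (1 / a + 1 / m + 1 / b) := by
  constructor <;> · field_simp; ring

/-- The rational part through the reciprocal of `1 + s + q`. -/
theorem rsum_form {s q : ℝ} (hM : 1 + s + q ≠ 0) :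
    q * rsum s q = 9296 * (2 + s) + 5472
      - ((1 + s) * (9296 * (2 + s) + 5472) + 2736 * (2 + s) ^ 2) / (1 + s + q)
      + 2736 * (2 + s) ^ 2 * (1 + s) / (1 + s + q) ^ 2 := by
  unfold rsum
  field_simp
  ring

theorem rsum_secant {s q0 q1 q : ℝ} (hs : 0 ≤ s) (hq0 : 0 ≤ q0) (h0 : q0 ≤ q) (h1 : q ≤ q1)
    (hq1 : q1 ≤ (s / 2) ^ 2) :
    (q1 - q) * (q0 * rsum s q0) + (q - q0) * (q1 * rsum s q1)
        + (2176 + 11472 * s + 3824 * s ^ 2) * ((q - q0) * (q1 - q) * (q1 - q0)) /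
          (1 + s + (s / 2) ^ 2) ^ 3 ≤ (q1 - q0) * (q * rsum s q) := by
  have ha : 0 < 1 + s + q0 := by linarith
  have hm : 0 < 1 + s + q := by linarith
  have hb : 0 < 1 + s + q1 := by linarith
  obtain ⟨i1, i2⟩ := inv_secant ha.ne' hb.ne' hm.ne'
  obtain ⟨K, hK⟩ : ∃ K, K = (q - q0) * (q1 - q) * (q1 - q0) /
      ((1 + s + q0) * (1 + s + q) * (1 + s + q1)) := ⟨_, rfl⟩
  obtain ⟨S, hS⟩ : ∃ S, S = 1 / (1 + s + q0) + 1 / (1 + s + q) + 1 / (1 + s + q1) := ⟨_, rfl⟩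
  rw [show 1 + s + q1 - (1 + s + q0) = q1 - q0 by ring,
    show 1 + s + q1 - (1 + s + q) = q1 - q by ring,
    show 1 + s + q - (1 + s + q0) = q - q0 by ring, ← hK] at i1 i2
  rw [← hS] at i2
  rw [rsum_form ha.ne', rsum_form hm.ne', rsum_form hb.ne']
  have hP : 0 ≤ (q - q0) * (q1 - q) * (q1 - q0) :=
    mul_nonneg (mul_nonneg (sub_nonneg.2 h0) (sub_nonneg.2 h1)) (sub_nonneg.2 (h0.trans h1))
  have hK0 : 0 ≤ K := hK ▸ div_nonneg hP (by positivity)
  have hS3 : (1 + s) * S ≤ 3 := by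
    have k : ∀ x : ℝ, 0 ≤ x → (1 + s) * (1 / (1 + s + x)) ≤ 1 := fun x hx => by
      rw [mul_one_div, div_le_one (by linarith)]
      linarith
    rw [hS, mul_add, mul_add]
    linarith [k q0 hq0, k q (hq0.trans h0), k q1 (by linarith)]
  have hKge : (q - q0) * (q1 - q) * (q1 - q0) / (1 + s + (s / 2) ^ 2) ^ 3 ≤ K := by
    rw [hK]
    refine div_le_div_of_nonneg_left hP (by positivity) ?_
    calc (1 + s + q0) * (1 + s + q) * (1 + s + q1)
        ≤ (1 + s + (s / 2) ^ 2) * (1 + s + (s / 2) ^ 2) * (1 + s + (s / 2) ^ 2) := by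
          gcongr <;> linarith
      _ = _ := by ring
  have e1 := mul_le_mul_of_nonneg_left hS3 (mul_nonneg (show 0 ≤ 2736 * (2 + s) ^ 2 by positivity) hK0)
  have e2 := mul_le_mul_of_nonneg_left hKge (show 0 ≤ 2176 + 11472 * s + 3824 * s ^ 2 by positivity)
  linear_combination (((1 + s) * (9296 * (2 + s) + 5472) + 2736 * (2 + s) ^ 2)) * i1
    - 2736 * (2 + s) ^ 2 * (1 + s) * i2 + e1 + e2

theorem bend {s m : ℝ} (hs : 0 ≤ s) (hs2 : s ≤ 2) (hm : 0 ≤ m) :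
    (2176 - 27216 * s + 3200 * s ^ 2 - m) * (1 + s + (s / 2) ^ 2) ^ 3 ≤
      2176 + 11472 * s + 3824 * s ^ 2 := by
  have hR : 0 ≤ 2176 + 11472 * s + 3824 * s ^ 2 := by positivity
  have hp : 0 ≤ (1 + s + (s / 2) ^ 2) ^ 3 := by positivity
  refine le_trans (mul_le_mul_of_nonneg_right
    (show 2176 - 27216 * s + 3200 * s ^ 2 - m ≤ 2176 - 20816 * s by nlinarith) hp) ?_
  rcases le_total (2176 - 20816 * s) 0 with h | h
  · exact (mul_nonpos_of_nonpos_of_nonneg h hp).trans hR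
  have hsm : s ≤ 11 / 100 := by linarith
  have h1 : 1 + s + (s / 2) ^ 2 ≤ 1 + 21 / 20 * s := by nlinarith
  have h3 : (1 + 21 / 20 * s) ^ 3 ≤ 1 + 4 * s := by
    nlinarith [mul_le_mul_of_nonneg_left hsm hs,
      mul_le_mul_of_nonneg_left hsm (mul_nonneg hs hs)]
  refine le_trans (mul_le_mul_of_nonneg_left
    ((pow_le_pow_left₀ (by positivity) h1 3).trans h3) h) ?_
  nlinarith

/-- The defect is nonnegative, being concave in the product. -/
theorem lineF_nonneg {r s q : ℝ} (hr : 0 ≤ r) (hs : 0 ≤ s) (hs2 : s ≤ 2)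
    (h0 : max 0 (s - 1) ≤ q) (h1 : q ≤ (s / 2) ^ 2) : 0 ≤ lineF r s q := by
  obtain ⟨q0, hq0⟩ : ∃ z, z = max 0 (s - 1) := ⟨_, rfl⟩
  obtain ⟨q1, hq1⟩ : ∃ z, z = (s / 2) ^ 2 := ⟨_, rfl⟩
  rw [← hq0] at h0
  rw [← hq1] at h1
  have hn : 0 ≤ q0 := hq0 ▸ le_max_left _ _
  refine secant (f := lineF r s) h0 h1 (hq0 ▸ lineF_low hr hs hs2) (hq1 ▸ lineF_high hr hs hs2) ?_
  have k1 := mul_le_mul_of_nonneg_right (symS_secant (s := s) hr h0 h1)
    (show 0 ≤ r ^ 3 / (2 + r) ^ 3 by positivity)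
  have k2 := hsum_secant s q0 q1 q
  have k3 := rsum_secant hs hn h0 h1 hq1.le
  obtain ⟨P, hP⟩ : ∃ P, P = (1 + s + (s / 2) ^ 2) ^ 3 := ⟨_, rfl⟩
  obtain ⟨X, hX⟩ : ∃ X, X = (q - q0) * (q1 - q) * (q1 - q0) := ⟨_, rfl⟩
  have hX0 : 0 ≤ X := hX ▸
    mul_nonneg (mul_nonneg (sub_nonneg.2 h0) (sub_nonneg.2 h1)) (sub_nonneg.2 (h0.trans h1))
  rw [← hX, ← hP] at k3
  rw [← hX] at k2
  have hP0 : 0 < P := by rw [hP]; positivity
  have hb := bend hs hs2 (m := 1600 * (q0 + q1 + q)) (by linarith)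
  rw [← hP] at hb
  have k4 : (2176 - 27216 * s + 3200 * s ^ 2 - 1600 * (q0 + q1 + q)) * X ≤
      (2176 + 11472 * s + 3824 * s ^ 2) * X / P := by
    rw [le_div_iff₀ hP0]
    calc _ = (2176 - 27216 * s + 3200 * s ^ 2 - 1600 * (q0 + q1 + q)) * P * X := by ring
      _ ≤ _ := mul_le_mul_of_nonneg_right hb hX0
  unfold lineF
  linarith

/-- The line inequality, with equality for `r = 2 c = 2 d`. -/
theorem line_inequality {r c d : ℝ} (hr : 0 < r) (hc : 0 ≤ c) (hc1 : c ≤ 1) (hd : 0 ≤ d)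
    (hd1 : d ≤ 1) :
    aCoef c * d + aCoef d * c + 43560 * (c * d) * r ≤ r ^ 6 * (psi r c d + psi r d c) := by
  obtain ⟨h0, h1⟩ := cosines_mem hc hc1 hd hd1
  have h := lineF_nonneg hr.le (by linarith) (by linarith) h0 h1
  rw [lineF_eq hc hd, ← psi_sym hr] at h
  have e : r ^ 3 * (2 + r) ^ 3 * (psi r c d + psi r d c) * (r ^ 3 / (2 + r) ^ 3) =
      r ^ 6 * (psi r c d + psi r d c) := by
    field_simp
  rw [e] at h
  linarith

/-- The symmetrised integrand is nonnegative. -/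
theorem psi_nonneg {r c d : ℝ} (hr : 0 < r) (hc : 0 ≤ c) (hc1 : c ≤ 1) (hd : 0 ≤ d)
    (hd1 : d ≤ 1) : 0 ≤ psi r c d + psi r d c := by
  refine nonneg_of_mul_nonneg_right (a := r ^ 3 * (2 + r) ^ 3) ?_ (by positivity)
  rw [psi_sym hr]
  exact symS_nonneg hr.le hc hc1 hd hd1

/-- The same after the regularisation of the distance. -/
theorem line_regular {r ρ c d : ℝ} (hr : 0 ≤ r) (hρ : r ≤ ρ) (hρ0 : 0 < ρ) (hc : 0 ≤ c)
    (hc1 : c ≤ 1) (hd : 0 ≤ d) (hd1 : d ≤ 1) :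
    aCoef c * d + aCoef d * c + 43560 * (c * d) * r * (r / ρ) ^ 5 ≤
      r ^ 6 * (psi ρ c d + psi ρ d c) := by
  obtain ⟨k, hk⟩ : ∃ k, k = (r / ρ) ^ 6 := ⟨_, rfl⟩
  have hk0 : 0 ≤ k := by rw [hk]; positivity
  have hk1 : k ≤ 1 := hk ▸ pow_le_one₀ (div_nonneg hr hρ0.le) ((div_le_one hρ0).2 hρ)
  have h1 := mul_le_mul_of_nonneg_left (line_inequality hρ0 hc hc1 hd hd1) hk0
  have hn : aCoef c * d + aCoef d * c ≤ 0 := add_nonpos
    (mul_nonpos_of_nonpos_of_nonneg (aCoef_nonpos hc hc1) hd)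
    (mul_nonpos_of_nonpos_of_nonneg (aCoef_nonpos hd hd1) hc)
  have e1 : k * ρ = r * (r / ρ) ^ 5 := by rw [hk]; field_simp
  have e2 : k * (ρ ^ 6 * (psi ρ c d + psi ρ d c)) = r ^ 6 * (psi ρ c d + psi ρ d c) := by
    rw [hk]; field_simp
  have h3 : k * (43560 * (c * d) * ρ) = 43560 * (c * d) * r * (r / ρ) ^ 5 := by
    calc k * (43560 * (c * d) * ρ) = 43560 * (c * d) * (k * ρ) := by ring
      _ = _ := by rw [e1]; ring
  have h4 := mul_le_mul_of_nonpos_right hk1 hn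
  linarith

end Vale.Agent.P219.CH.Seven
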